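import Vale.Agent.P186.H95.Normal
import Vale.Agent.P186.H95.Graph

/-! Triangle groups with one link of girth at least eight are hyperbolic. -/

namespace Vale.Agent.P186.H95

open Vale.Agent.P194 Relation

variable {A : Type} {T : A → A → A → Prop}

/-- the Cayley graph of a triangle group -/
abbrev Cay (T : A → A → A → Prop) : SimpleGraph (TriGroup T) :=
  SimpleGraph.mulCayley (Set.range (PresentedGroup.of : A → TriGroup T))

theorem cay_adj (h : IsTri T) (u v : TriGroup T) :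
    (Cay T).Adj u v ↔ ∃ l, v = u * letter T l := by
  rw [SimpleGraph.mulCayley_adj']
  constructor
  · rintro ⟨-, _, ⟨a, rfl⟩, rfl | rfl⟩
    · exact ⟨(a, true), rfl⟩
    · exact ⟨(a, false), by simp⟩
  · rintro ⟨l, rfl⟩
    refine ⟨fun e => letter_ne_one h l (by simpa using e), ?_⟩
    rcases l with ⟨a, _ | _⟩
    · exact ⟨_, ⟨a, rfl⟩, Or.inr (by simp)⟩
    · exact ⟨_, ⟨a, rfl⟩, Or.inl rfl⟩

theorem exists_walk (h : IsTri T) (w : List (A × Bool)) :
    ∀ u v : TriGroup T, v = u * ev T w → ∃ p : (Cay T).Walk u v, p.length = w.length := by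
  induction w with
  | nil => intro u v e; obtain rfl : v = u := by simpa using e
           exact ⟨.nil, rfl⟩
  | cons l w ih =>
    intro u v e
    obtain ⟨p, hp⟩ := ih (u * letter T l) v (by simp [e, mul_assoc])
    exact ⟨.cons ((cay_adj h _ _).mpr ⟨l, rfl⟩) p, by simp [hp]⟩

theorem cay_conn (h : IsTri T) : (Cay T).Connected := by
  refine ⟨fun u v => ?_⟩
  obtain ⟨w, hw⟩ := ev_surj (u⁻¹ * v)
  obtain ⟨p, -⟩ := exists_walk h w u v (by simp [hw])
  exact ⟨p⟩

theorem cay_dist (h : IsTri T) (u v : TriGroup T) : (Cay T).dist u v = len (u⁻¹ * v) := by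
  apply le_antisymm
  · obtain ⟨w, -, h1, h2⟩ := exists_irr_len (u⁻¹ * v)
    obtain ⟨p, hp⟩ := exists_walk h w u v (by simp [h1])
    exact ((Cay T).dist_le p).trans (by omega)
  · obtain ⟨p, hp⟩ := (cay_conn h).exists_walk_length_eq_dist u v
    rw [← hp]
    clear hp
    induction p with
    | nil => simp [len_one h]
    | @cons a b c hab p ih =>
      obtain ⟨l, rfl⟩ := (cay_adj h _ _).mp hab
      have := len_mul_le h l ((a * letter T l)⁻¹ * c)
      simp only [SimpleGraph.Walk.length_cons]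
      have e : letter T l * ((a * letter T l)⁻¹ * c) = a⁻¹ * c := by group
      rw [e] at this
      omega

theorem cay_dist' (h : IsTri T) (u v : TriGroup T) : (Cay T).dist u v = len (v⁻¹ * u) := by
  rw [SimpleGraph.dist_comm, cay_dist h]

theorem dist_one (h : IsTri T) {u v : TriGroup T} :
    (Cay T).dist u v = 1 ↔ ∃ l, v = u * letter T l := by
  rw [SimpleGraph.dist_eq_one_iff_adj, cay_adj h]

/-- link adjacency between a positive and a negative letter -/
def Fol (T : A → A → A → Prop) (a c : A) : Prop := ∃ b, T a b c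

theorem link_adj (h : IsTri T) {p : TriGroup T} {d d' : A × Bool}
    (e : (Cay T).dist (p * letter T d) (p * letter T d') = 1) :
    (d.2 = true ∧ d'.2 = false ∧ Fol T d.1 d'.1) ∨ (d.2 = false ∧ d'.2 = true ∧ Fol T d'.1 d.1) := by
  obtain ⟨l, hl⟩ := (dist_one h).mp e
  rw [mul_assoc, mul_right_inj] at hl
  have hr := rule_of_mul h hl.symm
  generalize hx : [d'] = r at hr
  cases hr with
  | canP a => simp at hx
  | canN a => simp at hx
  | pos t => obtain ⟨rfl, -⟩ := List.cons.inj hx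
             exact Or.inl ⟨rfl, rfl, _, t⟩
  | neg t => obtain ⟨rfl, -⟩ := List.cons.inj hx
             exact Or.inr ⟨rfl, rfl, _, h.cyc2 t⟩
  | swap t t' hne => simp at hx

/-- a three-colouring of the letters for which the link of colour zero has no hexagon -/
structure Col (T : A → A → A → Prop) (τ : A → ZMod 3) : Prop where
  step : ∀ {a b c}, T a b c → τ b = τ a + 1
  hex : ∀ {a₁ a₂ a₃ c₁ c₂ c₃}, τ a₁ = 0 → Fol T a₁ c₁ → Fol T a₂ c₁ → Fol T a₂ c₂ → Fol T a₃ c₂ →
    Fol T a₃ c₃ → Fol T a₁ c₃ → a₁ = a₂ ∨ a₂ = a₃ ∨ a₃ = a₁ ∨ c₁ = c₂ ∨ c₂ = c₃ ∨ c₃ = c₁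

theorem Col.fol (h : IsTri T) {τ : A → ZMod 3} (hc : Col T τ) {a c : A} (f : Fol T a c) :
    τ c + 1 = τ a := by
  obtain ⟨b, t⟩ := f
  exact (hc.step (h.cyc2 t)).symm

theorem thru_dirs (h : IsTri T) {τ : A → ZMod 3} (hc : Col T τ) {a p d : TriGroup T}
    (ht : Thru (Cay T) a p d) : ∃ x y : A,
      (a = p * letter T (x, true) ∧ d = p * letter T (y, false) ∧ τ x ≠ 0 ∧ τ y + 1 = τ x) ∨
      (a = p * letter T (x, false) ∧ d = p * letter T (y, true) ∧ τ y ≠ 0 ∧ τ x + 1 = τ y) := by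
  obtain ⟨b, c, e, f, h1, h2, h3, h4, h5, h6, a1, a2, a3, a4, a5, a6, n1, n2, n3, n4, n5, n6⟩ := ht
  obtain ⟨⟨x₁, s₁⟩, rfl⟩ := (dist_one h).mp h1
  obtain ⟨⟨x₂, s₂⟩, rfl⟩ := (dist_one h).mp h2
  obtain ⟨⟨x₃, s₃⟩, rfl⟩ := (dist_one h).mp h3
  obtain ⟨⟨x₄, s₄⟩, rfl⟩ := (dist_one h).mp h4
  obtain ⟨⟨x₅, s₅⟩, rfl⟩ := (dist_one h).mp h5
  obtain ⟨⟨x₆, s₆⟩, rfl⟩ := (dist_one h).mp h6
  have b1 := link_adj h a1
  have b2 := link_adj h a2
  have b3 := link_adj h a3
  have b4 := link_adj h a4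
  have b6 := link_adj h a6
  have a5' : (Cay T).dist (p * letter T (x₅, s₅)) (p * letter T (x₆, s₆)) = 1 := by
    have : (Cay T).dist (p * letter T (x₅, s₅)) (p * letter T (x₆, s₆)) ≠ 0 := by
      rw [Ne, (cay_conn h).dist_eq_zero_iff, mul_right_inj]
      intro e
      have := congrArg Prod.snd (letter_inj h e)
      simp only at this b1 b2 b3 b4 b6
      grind
    omega
  have b5 := link_adj h a5'
  simp only at b1 b2 b3 b4 b5 b6
  refine ⟨x₁, x₄, ?_⟩
  rcases b1 with ⟨rfl, rfl, f1⟩ | ⟨rfl, rfl, f1⟩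
  · simp only [Bool.false_eq_true, false_and, true_and, false_or] at b2
    obtain ⟨rfl, f2⟩ := b2
    simp only [Bool.true_eq_false, false_and, true_and, or_false] at b3
    obtain ⟨rfl, f3⟩ := b3
    simp only [Bool.false_eq_true, false_and, true_and, false_or] at b4
    obtain ⟨rfl, f4⟩ := b4
    simp only [Bool.true_eq_false, false_and, true_and, or_false] at b5
    obtain ⟨rfl, f5⟩ := b5
    simp only [Bool.false_eq_true, false_and, true_and, false_or] at b6
    refine Or.inl ⟨rfl, rfl, fun h0 => ?_, ?_⟩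
    · rcases hc.hex h0 f1 f2 f3 f4 f5 b6 with e | e | e | e | e | e <;> subst e <;> contradiction
    · rw [hc.fol h f3, ← hc.fol h f2, hc.fol h f1]
  · simp only [Bool.true_eq_false, false_and, true_and, or_false] at b2
    obtain ⟨rfl, f2⟩ := b2
    simp only [Bool.false_eq_true, false_and, true_and, false_or] at b3
    obtain ⟨rfl, f3⟩ := b3
    simp only [Bool.true_eq_false, false_and, true_and, or_false] at b4
    obtain ⟨rfl, f4⟩ := b4
    simp only [Bool.false_eq_true, false_and, true_and, false_or] at b5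
    obtain ⟨rfl, f5⟩ := b5
    simp only [Bool.true_eq_false, false_and, true_and, or_false] at b6
    refine Or.inr ⟨rfl, rfl, fun h0 => ?_, ?_⟩
    · rcases hc.hex h0 f4 f5 b6 f1 f2 f3 with e | e | e | e | e | e <;> subst e <;> contradiction
    · rw [hc.fol h f1, ← hc.fol h f2, hc.fol h f3]

theorem back {p q : TriGroup T} (h : IsTri T) {u v : A × Bool} (h1 : q = p * letter T u)
    (h2 : p = q * letter T v) : v = bar u := by
  apply letter_inj h
  rw [h1, mul_assoc, left_eq_mul] at h2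
  rw [letter_bar, eq_inv_iff_mul_eq_one]
  exact mul_eq_one_comm.mp h2

theorem cay_sys (h : IsTri T) {τ : A → ZMod 3} (hc : Col T τ) : Sys (Cay T) where
  conn := cay_conn h
  tc := by
    intro o v w n h1 h2 h3
    obtain ⟨l, rfl⟩ := (dist_one h).mp h1
    rw [cay_dist' h] at h2 h3
    obtain ⟨x, e, h4, h5⟩ := tc_len h (v⁻¹ * o) (bar l) n h2 (by
      rw [← h3, letter_bar, mul_inv_rev, mul_assoc])
    refine ⟨v * (letter T x)⁻¹, (dist_one h).mpr ⟨x, by simp⟩,
      (dist_one h).mpr ⟨bar e, ?_⟩, ?_⟩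
    · rw [letter_bar, inv_eq_iff_eq_inv] at h5
      rw [h5, letter_bar]
      group
    · rw [cay_dist' h, ← h4]
      congr 1
      group
  dc := by
    intro o v x y h1 h2 h3 h4
    obtain ⟨l, hl⟩ := (dist_one h).mp h1
    obtain ⟨l', hl'⟩ := (dist_one h).mp h2
    obtain rfl : x = v * (letter T l)⁻¹ := by rw [hl]; simp
    obtain rfl : y = v * (letter T l')⁻¹ := by rw [hl']; simp
    rw [cay_dist' h, cay_dist' h, mul_inv_rev, inv_inv, mul_assoc] at h3 h4
    rcases dc_len h _ l l' h3 h4 with rfl | ⟨e, he⟩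
    · simp
    · refine ((dist_one h).mpr ⟨bar e, ?_⟩).le
      rw [he, letter_bar]
      group
  hex := by
    intro x₁ x₂ x₃ x₄ x₅ t₁ t₂ t₃
    obtain ⟨a₁, b₁, h₁⟩ := thru_dirs h hc t₁
    obtain ⟨a₂, b₂, h₂⟩ := thru_dirs h hc t₂
    obtain ⟨a₃, b₃, h₃⟩ := thru_dirs h hc t₃
    have key : ∀ z : ZMod 3, z ≠ 0 → z + 1 ≠ 0 → z + 1 + 1 ≠ 0 → False := by decide
    rcases h₁ with ⟨-, e₁, n₁, m₁⟩ | ⟨-, e₁, n₁, m₁⟩ <;>
    rcases h₂ with ⟨d₂, e₂, n₂, m₂⟩ | ⟨d₂, e₂, n₂, m₂⟩ <;>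
    rcases h₃ with ⟨d₃, -, n₃, m₃⟩ | ⟨d₃, -, n₃, m₃⟩ <;>
    have k₁ := back h e₁ d₂ <;> have k₂ := back h e₂ d₃ <;>
    simp only [bar, Prod.mk.injEq, Bool.not_true, Bool.not_false, Bool.false_eq_true,
      Bool.true_eq_false, and_false, and_true] at k₁ k₂
    · subst k₁ k₂
      exact key (τ a₃) n₃ (by rwa [m₂]) (by rwa [m₂, m₁])
    · subst k₁ k₂
      exact key (τ a₂) n₁ (by rwa [m₂]) (by rwa [m₂, m₃])

theorem hyperbolic [Finite A] (h : IsTri T) {τ : A → ZMod 3} (hc : Col T τ) :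
    IsWordHyperbolic (TriGroup T) := by
  have hf : (Set.range (PresentedGroup.of : A → TriGroup T)).Finite := Set.finite_range _
  refine ⟨hf.toFinset, ?_, 12, ?_⟩
  · rw [hf.coe_toFinset]
    exact PresentedGroup.closure_range_of _
  · rw [hf.coe_toFinset]
    exact (cay_sys h hc).thin

end Vale.Agent.P186.H95
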