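import Vale.Agent.P186.H95.Hyp
import Vale.Agent.P194.Exists

/-! A hyperbolic group that is not residually finite. -/

namespace Vale.Agent.P186.H95

open Vale.Agent.P194

variable {E X S Y : Type}

/-- no six-cycle in the bipartite graph described by two maps -/
def NoHex {U V : Type} (f : E → U) (g : E → V) : Prop :=
  ∀ e₁ e₂ e₃ e₄ e₅ e₆, f e₁ = f e₂ → g e₂ = g e₃ → f e₃ = f e₄ → g e₄ = g e₅ → f e₅ = f e₆ →
    g e₆ = g e₁ → e₁ = e₂ ∨ e₂ = e₃ ∨ e₃ = e₄ ∨ e₄ = e₅ ∨ e₅ = e₆ ∨ e₆ = e₁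

/-- the colouring by types -/
def tcol : X ⊕ S ⊕ Y → ZMod 3
  | .inl _ => 0
  | .inr (.inl _) => 1
  | .inr (.inr _) => 2

theorem col_TT {src : E → X} {lab : E → S} {snk : E → Y} (h : NoHex snk src) :
    Col (TT src lab snk) tcol where
  step := by
    rintro a b c ⟨e, ⟨rfl, rfl, rfl⟩ | ⟨rfl, rfl, rfl⟩ | ⟨rfl, rfl, rfl⟩⟩ <;> rfl
  hex := by
    have k1 : ∀ {a c}, tcol a = 0 → Fol (TT src lab snk) a c →
        ∃ e, a = .inl (src e) ∧ c = .inr (.inr (snk e)) := by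
      rintro a c h0 ⟨b, e, ⟨rfl, rfl, rfl⟩ | ⟨rfl, rfl, rfl⟩ | ⟨rfl, rfl, rfl⟩⟩
      · exact ⟨e, rfl, rfl⟩
      · exact absurd h0 (by simp only [tcol]; decide)
      · exact absurd h0 (by simp only [tcol]; decide)
    have k2 : ∀ {a y}, Fol (TT src lab snk) a (.inr (.inr y)) →
        ∃ e, a = .inl (src e) ∧ y = snk e := by
      rintro a y ⟨b, e, ⟨rfl, rfl, h⟩ | ⟨rfl, rfl, h⟩ | ⟨rfl, rfl, h⟩⟩
      · exact ⟨e, rfl, by simpa using h⟩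
      · simp at h
      · simp at h
    intro a₁ a₂ a₃ c₁ c₂ c₃ h0 f1 f2 f3 f4 f5 f6
    obtain ⟨e₁, rfl, rfl⟩ := k1 h0 f1
    obtain ⟨e₂, rfl, p₂⟩ := k2 f2
    obtain ⟨e₃, p₃, rfl⟩ := k1 rfl f3
    obtain ⟨e₄, rfl, p₄⟩ := k2 f4
    obtain ⟨e₅, p₅, rfl⟩ := k1 rfl f5
    obtain ⟨e₆, p₆, p₇⟩ := k2 f6
    simp only [Sum.inl.injEq, Sum.inr.injEq] at p₃ p₅ p₆ ⊢
    rcases h e₁ e₂ e₃ e₄ e₅ e₆ p₂ p₃ p₄ p₅ p₇ p₆.symm with rfl | rfl | rfl | rfl | rfl | rfl <;>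
      simp [*]

theorem noHex_cut {src : E → X} {lab : E → S} {snk : E → Y} (h : Girth6 snk src)
    (h6 : NoHex snk src) {cut : S → E} (hc : ∀ s, lab (cut s) = s) :
    NoHex (CutEdge.snk (cut := cut) snk) (CutEdge.src src) := by
  intro e₁ e₂ e₃ e₄ e₅ e₆ p₁ p₂ p₃ p₄ p₅ p₆
  have hinj : ∀ s s', cut s = cut s' → s = s' := fun s s' e => by rw [← hc s, e, hc]
  have q₀ := h6 e₁.base e₂.base e₃.base e₄.base e₅.base e₆.base
  have q₁ := h.quad (e₁ := e₁.base) (e₂ := e₂.base) (e₃ := e₃.base) (e₄ := e₄.base)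
  have q₂ := h.quad (e₁ := e₃.base) (e₂ := e₄.base) (e₃ := e₅.base) (e₄ := e₆.base)
  have q₃ := h.quad (e₁ := e₅.base) (e₂ := e₆.base) (e₃ := e₁.base) (e₄ := e₂.base)
  have q₄ := h.symm.quad (e₁ := e₂.base) (e₂ := e₃.base) (e₃ := e₄.base) (e₄ := e₅.base)
  have q₅ := h.symm.quad (e₁ := e₄.base) (e₂ := e₅.base) (e₃ := e₆.base) (e₄ := e₁.base)
  have q₆ := h.symm.quad (e₁ := e₆.base) (e₂ := e₁.base) (e₃ := e₂.base) (e₄ := e₃.base)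
  have r₁ := h.simple (e := e₁.base) (e' := e₄.base)
  have r₂ := h.simple (e := e₂.base) (e' := e₅.base)
  have r₃ := h.simple (e := e₃.base) (e' := e₆.base)
  clear h h6 hc
  rcases e₁ with ⟨e₁, h₁⟩ | s₁ | s₁ | s₁ <;> rcases e₂ with ⟨e₂, h₂⟩ | s₂ | s₂ | s₂ <;>
    simp only [CutEdge.snk, reduceCtorEq, Sum.inl.injEq, Sum.inr.injEq] at p₁ <;>
    rcases e₃ with ⟨e₃, h₃⟩ | s₃ | s₃ | s₃ <;>
    simp only [CutEdge.src, reduceCtorEq, Sum.inl.injEq, Sum.inr.injEq] at p₂ <;>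
    rcases e₄ with ⟨e₄, h₄⟩ | s₄ | s₄ | s₄ <;>
    simp only [CutEdge.snk, reduceCtorEq, Sum.inl.injEq, Sum.inr.injEq] at p₃ <;>
    rcases e₅ with ⟨e₅, h₅⟩ | s₅ | s₅ | s₅ <;>
    simp only [CutEdge.src, reduceCtorEq, Sum.inl.injEq, Sum.inr.injEq] at p₄ <;>
    rcases e₆ with ⟨e₆, h₆⟩ | s₆ | s₆ | s₆ <;>
    simp only [CutEdge.snk, CutEdge.src, reduceCtorEq, Sum.inl.injEq, Sum.inr.injEq] at p₅ p₆ <;>
    simp only [CutEdge.base] at q₀ q₁ q₂ q₃ q₄ q₅ q₆ r₁ r₂ r₃ <;> grind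

theorem design_noHex {k F : Type} [Field k] [Field F] {σ : Pt k → Fˣ} {ϑ : Fˣ → kˣ}
    (hσ : Sidon σ) : NoHex (esnk σ ϑ : Ed k F → Ed k F) esrc := by
  rintro ⟨l₁, a₁, κ₁, w₁⟩ ⟨l₂, a₂, κ₂, w₂⟩ ⟨l₃, a₃, κ₃, w₃⟩ ⟨l₄, a₄, κ₄, w₄⟩ ⟨l₅, a₅, κ₅, w₅⟩
    ⟨l₆, a₆, κ₆, w₆⟩ h₁ h₂ h₃ h₄ h₅ h₆
  obtain ⟨rfl, b₁, -, c₁⟩ := esnk_eq h₁
  obtain ⟨rfl, b₃, -, c₃⟩ := esnk_eq h₃
  obtain ⟨rfl, b₅, -, c₅⟩ := esnk_eq h₅
  obtain ⟨-, -, -, c₂⟩ := esrc_eq h₂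
  obtain ⟨-, -, -, c₄⟩ := esrc_eq h₄
  obtain ⟨-, -, -, c₆⟩ := esrc_eq h₆
  by_cases n₁ : a₁ + w₁.1 = a₃ + w₃.1
  · exact Or.inr (Or.inl (eq_of_esrc h₂ (b₁.symm.trans n₁)))
  by_cases n₂ : a₃ + w₃.1 = a₅ + w₅.1
  · exact Or.inr (Or.inr (Or.inr (Or.inl (eq_of_esrc h₄ (b₃.symm.trans n₂)))))
  by_cases n₃ : a₅ + w₅.1 = a₁ + w₁.1
  · exact Or.inr (Or.inr (Or.inr (Or.inr (Or.inr (eq_of_esrc h₆ (b₅.symm.trans n₃))))))
  have ht : w₁.2.2.2.1 - w₂.2.2.2.1 = 0 := by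
    have d₁ := congrArg (fun w => w.2.2.2.2.1) c₁
    have d₂ := congrArg (fun w => w.2.2.2.2.1) c₂
    have d₃ := congrArg (fun w => w.2.2.2.2.1) c₃
    have d₄ := congrArg (fun w => w.2.2.2.2.1) c₄
    have d₅ := congrArg (fun w => w.2.2.2.2.1) c₅
    have d₆ := congrArg (fun w => w.2.2.2.2.1) c₆
    have g₁ := congrArg (fun w => w.2.2.2.2.2.1) c₁
    have g₂ := congrArg (fun w => w.2.2.2.2.2.1) c₂
    have g₃ := congrArg (fun w => w.2.2.2.2.2.1) c₃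
    have g₄ := congrArg (fun w => w.2.2.2.2.2.1) c₄
    have g₅ := congrArg (fun w => w.2.2.2.2.2.1) c₅
    have g₆ := congrArg (fun w => w.2.2.2.2.2.1) c₆
    have f₂ := congrArg (fun w => w.2.2.2.1) c₂
    have f₄ := congrArg (fun w => w.2.2.2.1) c₄
    have f₆ := congrArg (fun w => w.2.2.2.1) c₆
    simp only [dX, dY, Prod.snd_add, Prod.fst_add, Prod.smul_mk, smul_eq_mul, mul_zero,
      add_zero] at d₁ d₂ d₃ d₄ d₅ d₆ g₁ g₂ g₃ g₄ g₅ g₆ f₂ f₄ f₆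
    have m₁ : a₁ + w₁.1 - (a₃ + w₃.1) ≠ 0 := sub_ne_zero.mpr n₁
    have m₃ : a₁ + w₁.1 - (a₅ + w₅.1) ≠ 0 := sub_ne_zero.mpr (Ne.symm n₃)
    apply mul_right_cancel₀ (mul_ne_zero m₁ m₃)
    linear_combination (-1 : k) * (g₁ + g₂ + g₃ + g₄ + g₅ + g₆) +
      (a₃ + w₃.1 + (a₅ + w₅.1)) * (d₁ + d₂ + d₃ + d₄ + d₅ + d₆) -
      (a₃ + w₃.1) * (a₅ + w₅.1) * (f₂ + f₄ + f₆)
  rw [ht, zero_smul, add_zero] at c₁
  subst c₁
  exact Or.inl (simple_sy hσ rfl h₁)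

theorem df_of_rf {B G : Type} [Ring B] [Finite B] [Group G] [Group.ResiduallyFinite G] :
    IsDedekindFiniteMonoid (MonoidAlgebra B G) := by
  classical
  refine ⟨fun {a b} hab => ?_⟩
  let s : Finset G := insert 1 (b * a).coeff.support
  have hex : ∀ t : Finset G, ∃ N : FiniteIndexNormalSubgroup G, ∀ g ∈ t, g ≠ 1 → g ∉ N := by
    intro t
    induction t using Finset.induction_on with
    | empty => exact ⟨FiniteIndexNormalSubgroup.ofSubgroup ⊤, by simp⟩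
    | insert g t _ ih =>
      obtain ⟨N, hN⟩ := ih
      by_cases hg : g = 1
      · exact ⟨N, by simpa [hg] using hN⟩
      · obtain ⟨M, hM⟩ := Group.exists_finiteIndexNormalSubgroup_notMem g hg
        refine ⟨N ⊓ M, ?_⟩
        intro x hx hx1 hm
        rcases Finset.mem_insert.mp hx with rfl | hx
        · exact hM hm.2
        · exact hN x hx hx1 hm.1
  obtain ⟨N, hN⟩ := hex (Finset.image₂ (fun x y => x⁻¹ * y) s s)
  let π := QuotientGroup.mk' N.toSubgroup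
  have hinj : Set.InjOn π s := by
    intro x hx y hy e
    by_contra hne
    refine hN (x⁻¹ * y) (Finset.mem_image₂_of_mem hx hy)
      (fun h => hne (inv_mul_eq_one.mp h)) ?_
    exact QuotientGroup.eq.mp e
  have : Finite (MonoidAlgebra B (G ⧸ N.toSubgroup)) :=
    Finite.of_injective (fun x => (x.coeff : (G ⧸ N.toSubgroup) → B))
      (DFunLike.coe_injective.comp MonoidAlgebra.coeff_injective)
  let f := MonoidAlgebra.mapDomainRingHom B π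
  have h1 : f (b * a) = f 1 := by
    rw [map_mul, map_one]
    exact mul_eq_one_symm (by rw [← map_mul, hab, map_one])
  apply MonoidAlgebra.coeff_injective
  refine Finsupp.mapDomain_injOn (s : Set G) hinj ?_ ?_ (congrArg MonoidAlgebra.coeff h1)
  · exact fun x hx => Finset.mem_insert_of_mem hx
  · intro x hx
    rw [MonoidAlgebra.one_def, MonoidAlgebra.coeff_single] at hx
    obtain rfl := Finset.mem_singleton.mp (Finsupp.support_single_subset hx)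
    exact Finset.mem_insert_self _ _

theorem main : ∃ (G : Type) (_ : Group G), IsWordHyperbolic G ∧ ¬ Group.ResiduallyFinite G := by
  have : Fact (Nat.Prime 2) := ⟨Nat.prime_two⟩
  obtain ⟨k, F, _, _, _, _, _, _, σ, ϑ, hσ, h⟩ := exists_design 2
  have : Finite (Module.End F (Fˣ → F)) :=
    Finite.of_injective (fun f : Module.End F (Fˣ → F) => (f : (Fˣ → F) → (Fˣ → F)))
      DFunLike.coe_injective
  have hc : ∀ s, elb σ (ecut σ s) = s := fun s => by simp [elb, ecut]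
  refine ⟨_, inferInstance, hyperbolic ((design_isSys (ϑ := ϑ) hσ).cut hc).isTri
    (col_TT (noHex_cut (girth_yx hσ) (design_noHex hσ) hc)), fun _ => h df_of_rf⟩

end Vale.Agent.P186.H95
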