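import Vale.Agent.P194.Tri

/-! Word length in a triangle group through normal forms. -/

namespace Vale.Agent.P186.H95

open Vale.Agent.P194 Relation

variable {A : Type*} {T : A → A → A → Prop}

/-- irreducible words -/
def Irr (T : A → A → A → Prop) (w : List (A × Bool)) : Prop := ∀ w', ¬ Step T w w'

theorem irr_nil : Irr T [] := fun _ h => by cases h

theorem Irr.tail {u : A × Bool} {w : List (A × Bool)} (h : Irr T (u :: w)) : Irr T w :=
  fun _ hs => h _ (Step.tail u hs)

theorem Irr.head {u v : A × Bool} {w r : List (A × Bool)} (h : Irr T (u :: v :: w))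
    (hr : Rule T u v r) : False := h _ (Step.head w hr)

theorem irr_cons {u : A × Bool} {w : List (A × Bool)} (hw : Irr T w)
    (h : ∀ v w' r, w = v :: w' → ¬ Rule T u v r) : Irr T (u :: w) := by
  intro x hx
  cases hx with
  | head w' hr => exact h _ _ _ rfl hr
  | tail _ hs => exact hw _ hs

theorem irr_single (u : A × Bool) : Irr T [u] := irr_cons irr_nil (by simp)

theorem exists_nf (w : List (A × Bool)) : ∃ w', Irr T w' ∧ ReflTransGen (Step T) w w' := by
  induction w using (step_wf (T := T)).induction with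
  | _ w ih =>
    by_cases h : Irr T w
    · exact ⟨w, h, ReflTransGen.refl⟩
    · simp only [Irr, not_forall, not_not] at h
      obtain ⟨x, hx⟩ := h
      obtain ⟨y, h1, h2⟩ := ih x hx
      exact ⟨y, h1, ReflTransGen.head hx h2⟩

theorem Irr.eq_of_steps {w x : List (A × Bool)} (h : Irr T w) (hs : ReflTransGen (Step T) w x) :
    x = w := by
  rcases hs.cases_head with rfl | ⟨y, hy, _⟩
  · rfl
  · exact absurd hy (h y)

theorem steps_length_le {w x : List (A × Bool)} (hs : ReflTransGen (Step T) w x) :
    x.length ≤ w.length := by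
  induction hs with
  | refl => exact le_rfl
  | tail _ h ih => exact h.length_le.trans ih

theorem steps_of_ev_eq (h : IsTri T) {w x : List (A × Bool)} (hx : Irr T x)
    (he : ev T w = ev T x) : ReflTransGen (Step T) w x := by
  obtain ⟨d, h1, h2⟩ := join_of_ev_eq h he
  rwa [hx.eq_of_steps h2] at h1

/-- the inverse letter -/
def bar (u : A × Bool) : A × Bool := (u.1, !u.2)

@[simp] theorem letter_bar (u : A × Bool) : letter T (bar u) = (letter T u)⁻¹ := by
  rcases u with ⟨a, _ | _⟩ <;> simp [bar]

theorem ev_surj (g : TriGroup T) : ∃ w, ev T w = g := by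
  obtain ⟨x, rfl⟩ := PresentedGroup.mk_surjective _ g
  induction x using FreeGroup.induction_on with
  | C1 => exact ⟨[], by simp⟩
  | of a => exact ⟨[(a, true)], by simp [PresentedGroup.of]⟩
  | inv_of a _ => exact ⟨[(a, false)], by simp [PresentedGroup.of]⟩
  | mul x y hx hy =>
    obtain ⟨w, hw⟩ := hx
    obtain ⟨w', hw'⟩ := hy
    exact ⟨w ++ w', by simp [hw, hw']⟩

theorem exists_irr (g : TriGroup T) : ∃ w, Irr T w ∧ ev T w = g := by
  obtain ⟨w, rfl⟩ := ev_surj g
  obtain ⟨x, h1, h2⟩ := exists_nf (T := T) w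
  exact ⟨x, h1, (steps_ev_eq h2).symm⟩

/-- word length -/
noncomputable def len (g : TriGroup T) : ℕ := (exists_irr g).choose.length

theorem len_le (h : IsTri T) (w : List (A × Bool)) : len (ev T w) ≤ w.length := by
  obtain ⟨h1, h2⟩ := (exists_irr (ev T w)).choose_spec
  exact steps_length_le (steps_of_ev_eq h h1 h2.symm)

theorem len_irr (h : IsTri T) {w : List (A × Bool)} (hw : Irr T w) : len (ev T w) = w.length := by
  obtain ⟨h1, h2⟩ := (exists_irr (ev T w)).choose_spec
  exact le_antisymm (len_le h w) (steps_length_le (steps_of_ev_eq h hw h2))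

theorem exists_irr_len (g : TriGroup T) : ∃ w, Irr T w ∧ ev T w = g ∧ w.length = len g :=
  ⟨_, (exists_irr g).choose_spec.1, (exists_irr g).choose_spec.2, rfl⟩

theorem len_letter (h : IsTri T) (u : A × Bool) : len (letter T u) = 1 := by
  simpa using len_irr h (irr_single u)

theorem len_one (h : IsTri T) : len (1 : TriGroup T) = 0 := by
  simpa using len_irr h irr_nil

theorem letter_ne_one (h : IsTri T) (u : A × Bool) : letter T u ≠ 1 := by
  intro e
  have := len_letter h u
  rw [e, len_one h] at this
  omega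

theorem letter_inj (h : IsTri T) {u v : A × Bool} (e : letter T u = letter T v) : u = v := by
  have := steps_single (steps_of_ev_eq h (w := [u]) (irr_single v) (by simpa using e))
  simpa using this.symm

theorem exists_letter {g : TriGroup T} (e : len g = 1) : ∃ u, g = letter T u := by
  obtain ⟨w, -, h1, h2⟩ := exists_irr_len g
  rw [e, List.length_eq_one_iff] at h2
  obtain ⟨u, rfl⟩ := h2
  exact ⟨u, by simpa using h1.symm⟩

theorem len_mul_le (h : IsTri T) (u : A × Bool) (g : TriGroup T) :
    len (letter T u * g) ≤ len g + 1 := by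
  obtain ⟨w, -, rfl, h2⟩ := exists_irr_len g
  have := len_le h (u :: w)
  rw [← h2]
  simpa using this

theorem rule_of_mul (h : IsTri T) {u e v : A × Bool} (he : letter T u * letter T e = letter T v) :
    Rule T u e [v] := by
  have hs := steps_of_ev_eq h (w := [u, e]) (irr_single v) (by simpa using he)
  rcases hs.cases_head with h0 | ⟨x, hx, hs⟩
  · simp at h0
  cases hx with
  | tail _ h1 => exact absurd h1 (irr_single _ _)
  | head _ hr =>
    cases hr with
    | canP a => have := irr_nil.eq_of_steps hs; simp at this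
    | canN a => have := irr_nil.eq_of_steps hs; simp at this
    | pos t => have := steps_single hs; rw [this]; exact Rule.pos t
    | neg t => have := steps_single hs; rw [this]; exact Rule.neg t
    | @swap a a' b c c' t t' hne =>
      have hi : Irr T [(a, true), (a', false)] := by
        refine irr_cons (irr_single _) ?_
        intro v w' r hv hr
        obtain ⟨rfl, -⟩ := List.cons.inj hv
        cases hr
        exact hne (h.uniq t t')
      have := hi.eq_of_steps hs
      simp at this

/-- admissible first letters after a swap -/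
def HeadOK (T : A → A → A → Prop) (a' b : A) (w : List (A × Bool)) : Prop :=
  ∀ v w', w = v :: w' → v = (a', false) ∨ ∃ α β, v = (α, true) ∧ T a' α β ∧ α ≠ b

theorem irr_cons_of_headOK (h : IsTri T) {a a' b c c' : A} (t : T a b c) (t' : T a' b c')
    (hne : c ≠ c') {w : List (A × Bool)} (hw : Irr T w) (ho : HeadOK T a' b w) :
    Irr T ((a, true) :: w) := by
  refine irr_cons hw fun v w' r hv hr => ?_
  rcases ho v w' hv with rfl | ⟨α, β, rfl, t₁, hα⟩
  · cases hr
    exact hne (h.uniq t t')
  · cases hr with
    | pos t₂ =>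
      rcases h.quad (h.cyc2 t) (h.cyc2 t₂) (h.cyc2 t') (h.cyc2 t₁) with e | e
      · exact hα e.symm
      · subst e
        exact hne (h.uniq t t')

theorem irr_of_neg (h : IsTri T) {a b c : A} (t : T a b c) {w : List (A × Bool)}
    (hw : Irr T ((a, false) :: w)) : Irr T ((c, true) :: w) := by
  refine irr_cons hw.tail fun v w' r hv hr => ?_
  subst hv
  cases hr with
  | canP => exact hw.head (Rule.neg (h.cyc2 t))
  | @pos _ g η t₁ =>
    by_cases e : a = g
    · subst e; exact hw.head (Rule.canN _)
    · exact hw.head (Rule.swap (h.cyc t) (h.cyc2 t₁) e)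

theorem after_swap (h : IsTri T) (w : List (A × Bool)) : ∀ {a' b c' : A}, T a' b c' →
    Irr T ((c', true) :: w) → ∃ w₁, Irr T w₁ ∧ ev T w₁ = letter T (a', false) * ev T w ∧
      w.length ≤ w₁.length ∧ HeadOK T a' b w₁ := by
  induction w with
  | nil =>
    intro a' b c' _ _
    refine ⟨[(a', false)], irr_single _, by simp, by simp, ?_⟩
    intro v w' hv
    exact Or.inl (List.cons.inj hv).1.symm
  | cons x w ih =>
    intro a' b c' t hw
    by_cases hr : ∃ r, Rule T (a', false) x r
    · obtain ⟨r, hr⟩ := hr
      have hev := hr.ev_eq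
      cases hr with
      | canN => exact (hw.head (Rule.pos (h.cyc2 t))).elim
      | @neg g _ z t₁ =>
        refine ⟨(z, true) :: w, irr_of_neg h t₁ hw.tail, ?_, by simp, ?_⟩
        · rw [ev_cons, ev_cons, ← mul_assoc, hev]; simp
        · intro v w' hv
          refine Or.inr ⟨z, g, (List.cons.inj hv).1.symm, h.cyc t₁, ?_⟩
          rintro rfl
          obtain rfl := h.uniq t (h.cyc t₁)
          exact hw.head (Rule.canP _)
      | @swap α α' β _ g t₁ t₂ hne =>
        obtain ⟨w₂, i₁, i₂, i₃, i₄⟩ := ih t₂ hw.tail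
        refine ⟨(α, true) :: w₂, irr_cons_of_headOK h t₁ t₂ hne i₁ i₄, ?_, by simpa using i₃, ?_⟩
        · rw [ev_cons, i₂, ev_cons, ← mul_assoc, ← mul_assoc, hev]; simp
        · intro v w' hv
          refine Or.inr ⟨α, β, (List.cons.inj hv).1.symm, h.cyc2 t₁, ?_⟩
          rintro rfl
          obtain rfl := h.uniq t (h.cyc2 t₁)
          exact hw.head (Rule.pos (h.cyc t₂))
    · refine ⟨(a', false) :: x :: w, irr_cons hw.tail ?_, by simp, by simp, ?_⟩
      · intro v w' r hv hr'
        obtain ⟨rfl, -⟩ := List.cons.inj hv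
        exact hr ⟨r, hr'⟩
      · intro v w' hv
        exact Or.inl (List.cons.inj hv).1.symm

theorem len_swap (h : IsTri T) {a a' b c c' : A} (t : T a b c) (t' : T a' b c') (hne : c ≠ c')
    {w : List (A × Bool)} (hw : Irr T ((c', true) :: w)) :
    len (letter T (c, false) * ev T ((c', true) :: w)) =
      len (letter T (a', false) * ev T w) + 1 ∧ w.length ≤ len (letter T (a', false) * ev T w) := by
  obtain ⟨w₁, i₁, i₂, i₃, i₄⟩ := after_swap h w t' hw
  have h1 := len_irr h (irr_cons_of_headOK h t t' hne i₁ i₄)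
  have h2 := len_irr h i₁
  have h3 := (Rule.swap t t' hne).ev_eq
  rw [i₂] at h2
  rw [ev_cons, i₂] at h1
  rw [ev_cons, ← mul_assoc, h3, h2]
  refine ⟨?_, i₃⟩
  simpa [mul_assoc] using h1

theorem len_of_no_rule (h : IsTri T) {u v : A × Bool} {w : List (A × Bool)}
    (hw : Irr T (v :: w)) (hr : ¬ ∃ r, Rule T u v r) :
    len (letter T u * ev T (v :: w)) = w.length + 2 := by
  have := len_irr h (irr_cons (u := u) hw (by
    intro v' w' r hv hr'
    obtain ⟨rfl, -⟩ := List.cons.inj hv
    exact hr ⟨r, hr'⟩))
  rw [ev_cons] at this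
  simpa using this

theorem down_unique (h : IsTri T) (w : List (A × Bool)) : ∀ {a a₁ b c c₁ : A}, T a b c →
    T a₁ b c₁ → Irr T ((b, true) :: w) → len (letter T (c, false) * ev T w) ≤ w.length →
    len (letter T (c₁, false) * ev T w) ≤ w.length → c = c₁ := by
  induction w with
  | nil =>
    intro a a₁ b c c₁ _ _ _ h1 _
    rw [ev_nil, mul_one, len_letter h] at h1
    simp at h1
  | cons x w ih =>
    intro a a₁ b c c₁ t t₁ hw h1 h2
    have r1 : ∃ r, Rule T (c, false) x r := by
      by_contra hc
      rw [len_of_no_rule h hw.tail hc] at h1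
      simp at h1
    have r2 : ∃ r, Rule T (c₁, false) x r := by
      by_contra hc
      rw [len_of_no_rule h hw.tail hc] at h2
      simp at h2
    obtain ⟨r, r1⟩ := r1
    obtain ⟨r', r2⟩ := r2
    cases r1 with
    | canN => exact (hw.head (Rule.pos (h.cyc t))).elim
    | @neg g _ y s =>
      cases r2 with
      | neg s₁ =>
        rcases h.quad (h.cyc2 s) (h.cyc2 s₁) t t₁ with e | e
        · exact e
        · subst e; exact (hw.head (Rule.canP _)).elim
    | @swap α α' β _ g s s' hne =>
      cases r2 with
      | canN => exact (hw.head (Rule.pos (h.cyc t₁))).elim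
      | @swap α₁ α₁' β₁ _ _ s₁ s₁' hne₁ =>
        have e1 := (len_swap h s s' hne hw.tail).1
        have e2 := (len_swap h s₁ s₁' hne₁ hw.tail).1
        simp only [List.length_cons] at h1 h2
        obtain rfl := ih (h.cyc s') (h.cyc s₁') hw.tail (by omega) (by omega)
        obtain rfl := h.uniq2 s' s₁'
        rcases h.quad s s₁ t t₁ with e | e
        · exact e
        · subst e; exact (hw.head (Rule.pos (h.cyc s'))).elim

theorem tc_len (h : IsTri T) (g : TriGroup T) (u : A × Bool) (n : ℕ) (hg : len g = n + 1)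
    (hu : len (letter T u * g) = n + 1) :
    ∃ x e, len (letter T x * g) = n ∧ letter T u = letter T e * letter T x := by
  obtain ⟨w, hw, rfl, hl⟩ := exists_irr_len g
  rw [hg] at hl
  obtain ⟨v, w, rfl⟩ := List.exists_cons_of_length_eq_add_one hl
  simp only [List.length_cons, Nat.add_right_cancel_iff] at hl
  have h0 : len (letter T (bar v) * ev T (v :: w)) = n := by
    rw [letter_bar, ev_cons, inv_mul_cancel_left, len_irr h hw.tail, hl]
  have r1 : ∃ r, Rule T u v r := by
    by_contra hc
    rw [len_of_no_rule h hw hc] at hu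
    omega
  obtain ⟨r, r1⟩ := r1
  have hev := r1.ev_eq
  cases r1 with
  | canP a => have : bar (a, false) = (a, true) := rfl
              rw [this] at h0; omega
  | canN a => have : bar (a, true) = (a, false) := rfl
              rw [this] at h0; omega
  | @pos a b c t =>
    exact ⟨_, (c, false), h0, by rw [letter_bar, eq_mul_inv_iff_mul_eq, hev]; simp⟩
  | @neg a b c t =>
    exact ⟨_, (c, true), h0, by rw [letter_bar, eq_mul_inv_iff_mul_eq, hev]; simp⟩
  | @swap a a' b c c' t t' hne =>
    have e1 := (len_swap h t t' hne hw).1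
    refine ⟨(b, true), (a, true), ?_, ?_⟩
    · rw [ev_cons, ← mul_assoc, (Rule.pos (h.cyc t')).ev_eq]
      simp only [ev_cons, ev_nil, mul_one]
      omega
    · rw [(Rule.pos t).ev_eq]; simp

theorem down_cases (h : IsTri T) {v : A × Bool} {w : List (A × Bool)} (hw : Irr T (v :: w))
    (u : A × Bool) (hu : len (letter T u * ev T (v :: w)) = w.length) :
    u = bar v ∨ ∃ a b c, T a b c ∧ u = (a, true) ∧ v = (b, true) ∧
      len (letter T (c, false) * ev T w) ≤ w.length := by
  have r1 : ∃ r, Rule T u v r := by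
    by_contra hc
    rw [len_of_no_rule h hw hc] at hu
    omega
  obtain ⟨r, r1⟩ := r1
  have hev := r1.ev_eq
  cases r1 with
  | canP a => exact Or.inl rfl
  | canN a => exact Or.inl rfl
  | @pos a b c t =>
    refine Or.inr ⟨a, b, c, t, rfl, rfl, ?_⟩
    rw [ev_cons, ← mul_assoc, hev] at hu
    simpa using hu.le
  | @neg a b c t =>
    have := len_irr h (irr_of_neg h t hw)
    rw [ev_cons, ← mul_assoc, hev] at hu
    simp only [ev_cons, ev_nil, mul_one, List.length_cons] at hu this
    omega
  | @swap a a' b c c' t t' hne =>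
    have e1 := len_swap h t t' hne hw
    omega

theorem dc_len (h : IsTri T) (g : TriGroup T) (x y : A × Bool)
    (hx : len (letter T x * g) + 1 = len g) (hy : len (letter T y * g) + 1 = len g) :
    x = y ∨ ∃ e, letter T y = letter T e * letter T x := by
  obtain ⟨w, hw, rfl, hl⟩ := exists_irr_len g
  rw [← hl] at hx hy
  obtain ⟨v, w, rfl⟩ := List.exists_cons_of_length_eq_add_one hx.symm
  simp only [List.length_cons, Nat.add_right_cancel_iff] at hx hy
  rcases down_cases h hw x hx with rfl | ⟨a, b, c, t, rfl, rfl, h1⟩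
  · rcases down_cases h hw y hy with rfl | ⟨a, b, c, t, rfl, rfl, h1⟩
    · exact Or.inl rfl
    · refine Or.inr ⟨(c, false), ?_⟩
      rw [letter_bar, eq_mul_inv_iff_mul_eq, (Rule.pos t).ev_eq]; simp
  · rcases down_cases h hw y hy with rfl | ⟨a₁, b₁, c₁, t₁, rfl, hb, h2⟩
    · refine Or.inr ⟨(c, true), ?_⟩
      rw [(Rule.pos (h.cyc2 t)).ev_eq]; simp [bar]
    · obtain rfl : b = b₁ := congrArg Prod.fst hb
      obtain rfl := down_unique h w t t₁ hw h1 h2
      exact Or.inl (by rw [h.uniq1 t t₁])

end Vale.Agent.P186.H95
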